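import Vale.Agent.Lib.P348.helper23.Basics

/-!
P348, pool piece K6: inner product basics on vectors indexed by a finite type (the inner product
of a vector with itself, linearity in the second argument, Cauchy-Schwarz for the real part) and
the fact that the least eigenvalue of a Hermitian matrix is at most each diagonal entry.
-/

namespace Vale.Agent.Lib.P348.H22

open Matrix
open Vale.Agent.Lib.P361 Vale.Agent.Lib.P348

theorem ip_self {n : Type*} [Fintype n] (ψ : n → ℂ) : ip ψ ψ = (nsq ψ : ℂ) := by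
  rw [ip_def, nsq_def]
  push_cast
  refine Finset.sum_congr rfl fun σ _ => ?_
  rw [Complex.star_def, Complex.conj_mul']

theorem ip_sub_right {n : Type*} [Fintype n] (φ ψ χ : n → ℂ) :
    ip φ (ψ - χ) = ip φ ψ - ip φ χ := by
  rw [ip_def, ip_def, ip_def, ← Finset.sum_sub_distrib]
  refine Finset.sum_congr rfl fun σ _ => ?_
  rw [Pi.sub_apply, mul_sub]

theorem ip_smul_right {n : Type*} [Fintype n] (c : ℂ) (φ ψ : n → ℂ) :
    ip φ (c • ψ) = c * ip φ ψ := by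
  rw [ip_def, ip_def, Finset.mul_sum]
  refine Finset.sum_congr rfl fun σ _ => ?_
  rw [Pi.smul_apply, smul_eq_mul]
  ring

theorem nsq_nonneg {n : Type*} [Fintype n] (ψ : n → ℂ) : 0 ≤ nsq ψ := by
  rw [nsq_def]
  exact Finset.sum_nonneg fun σ _ => sq_nonneg _

theorem nsq_eq_zero {n : Type*} [Fintype n] (ψ : n → ℂ) (h : nsq ψ = 0) : ψ = 0 := by
  rw [nsq_def] at h
  have h2 := (Finset.sum_eq_zero_iff_of_nonneg (fun σ _ => sq_nonneg (‖ψ σ‖))).mp h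
  funext σ
  have h3 : ‖ψ σ‖ ^ 2 = 0 := h2 σ (Finset.mem_univ σ)
  have h4 : ‖ψ σ‖ = 0 := (pow_eq_zero_iff two_ne_zero).mp h3
  show ψ σ = 0
  exact norm_eq_zero.mp h4

theorem ip_re_sq_le {n : Type*} [Fintype n] (φ ψ : n → ℂ) :
    (ip φ ψ).re ^ 2 ≤ nsq φ * nsq ψ := by
  rw [ip_def, nsq_def, nsq_def]
  have h1 : |(∑ σ, star (φ σ) * ψ σ).re| ≤ ∑ σ, ‖φ σ‖ * ‖ψ σ‖ := by
    calc |(∑ σ, star (φ σ) * ψ σ).re| ≤ ‖∑ σ, star (φ σ) * ψ σ‖ := Complex.abs_re_le_norm _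
      _ ≤ ∑ σ, ‖star (φ σ) * ψ σ‖ := norm_sum_le _ _
      _ = ∑ σ, ‖φ σ‖ * ‖ψ σ‖ := by
        refine Finset.sum_congr rfl fun σ _ => ?_
        rw [norm_mul, norm_star]
  have h2 : (∑ σ, ‖φ σ‖ * ‖ψ σ‖) ^ 2 ≤ (∑ σ, ‖φ σ‖ ^ 2) * (∑ σ, ‖ψ σ‖ ^ 2) :=
    Finset.sum_mul_sq_le_sq_mul_sq Finset.univ _ _
  calc (∑ σ, star (φ σ) * ψ σ).re ^ 2 = |(∑ σ, star (φ σ) * ψ σ).re| ^ 2 := (sq_abs _).symm
    _ ≤ (∑ σ, ‖φ σ‖ * ‖ψ σ‖) ^ 2 := pow_le_pow_left₀ (abs_nonneg _) h1 2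
    _ ≤ _ := h2

theorem min_eig_le_diag {n : Type*} [Fintype n] [DecidableEq n] (M : Matrix n n ℂ)
    (hM : M.IsHermitian) (k0 : n) (hk0 : ∀ k, hM.eigenvalues k0 ≤ hM.eigenvalues k) (σ : n) :
    hM.eigenvalues k0 ≤ (M σ σ).re := by
  have hspec : M = (hM.eigenvectorUnitary : Matrix n n ℂ)
      * diagonal (RCLike.ofReal ∘ hM.eigenvalues)
      * star (hM.eigenvectorUnitary : Matrix n n ℂ) := by
    have h := hM.spectral_theorem
    rw [Unitary.conjStarAlgAut_apply] at h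
    exact h
  have hentry : M σ σ = ∑ k, ((hM.eigenvalues k : ℝ) : ℂ)
      * ((‖(hM.eigenvectorUnitary : Matrix n n ℂ) σ k‖ ^ 2 : ℝ) : ℂ) := by
    conv_lhs => rw [hspec]
    rw [Matrix.mul_apply]
    refine Finset.sum_congr rfl fun k _ => ?_
    rw [Matrix.mul_diagonal, Matrix.star_apply, Complex.star_def, mul_assoc, mul_comm,
      mul_assoc, Complex.conj_mul']
    push_cast
    rfl
  have hre : (M σ σ).re
      = ∑ k, hM.eigenvalues k * ‖(hM.eigenvectorUnitary : Matrix n n ℂ) σ k‖ ^ 2 := by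
    have e : M σ σ = ((∑ k, hM.eigenvalues k
        * ‖(hM.eigenvectorUnitary : Matrix n n ℂ) σ k‖ ^ 2 : ℝ) : ℂ) := by
      rw [hentry]
      push_cast
      rfl
    rw [e, Complex.ofReal_re]
  have hone : ∑ k, ‖(hM.eigenvectorUnitary : Matrix n n ℂ) σ k‖ ^ 2 = 1 := by
    have hU : (hM.eigenvectorUnitary : Matrix n n ℂ)
        * star (hM.eigenvectorUnitary : Matrix n n ℂ) = 1 := Unitary.coe_mul_star_self _
    have h1 := congrFun (congrFun hU σ) σ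
    rw [Matrix.mul_apply, Matrix.one_apply_eq] at h1
    have h2 : ((∑ k, ‖(hM.eigenvectorUnitary : Matrix n n ℂ) σ k‖ ^ 2 : ℝ) : ℂ) = 1 := by
      rw [← h1]
      push_cast
      refine Finset.sum_congr rfl fun k _ => ?_
      rw [Matrix.star_apply, Complex.star_def, Complex.mul_conj']
    exact_mod_cast h2
  rw [hre]
  calc hM.eigenvalues k0
      = ∑ k, hM.eigenvalues k0 * ‖(hM.eigenvectorUnitary : Matrix n n ℂ) σ k‖ ^ 2 := by
        rw [← Finset.mul_sum, hone, mul_one]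
    _ ≤ ∑ k, hM.eigenvalues k * ‖(hM.eigenvectorUnitary : Matrix n n ℂ) σ k‖ ^ 2 :=
        Finset.sum_le_sum fun k _ => mul_le_mul_of_nonneg_right (hk0 k) (sq_nonneg _)

end Vale.Agent.Lib.P348.H22
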